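import Vale.Agent.P281.H64.Z11.Defs
import Vale.Agent.P281.H64.Z3.Easy
import Vale.Agent.P281.H303.TC.Fin
import Vale.Agent.P281.H64.TW.FinR
import Vale.Agent.P281.H303.X.Fin
import Vale.Agent.P281.H495.Cov.Z5
import Vale.Agent.P281.H303.R.Link2
import Vale.Agent.P281.H495.DC.Fin
import Vale.Agent.P281.H495.DC.Fib

/-!
# P281, Towers v3 (helper64), with models: the proof
-/

open Set
open Vale.Agent.P281 Vale.Agent.P281.H713.TZ.S
open Vale.Agent.P281.H511.Surf (IsFibration IsFibre)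
open Vale.Agent.P281.H64.Thin (IsThinSet)
open Vale.Agent.P281.H64.TW (KodFCompStmt)
open scoped Manifold ContDiff Topology

set_option linter.unusedSectionVars false

noncomputable section

namespace Vale.Agent.P281.H64.Z11

/-- The input T-HKT: very general fibres with a finite étale covering which is the product of a torus
and a simply connected symplectic manifold. -/
def HTLe : Prop :=
  ∀ (p d : ℕ) (X Y : Type) [TopologicalSpace X] [ChartedSpace (Cm (p + d)) X]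
    [TopologicalSpace Y] [ChartedSpace (Cm p) Y] (f : X → Y) (Δ : Set X → ℝ), 0 < d →
    Fibn (p + d) p f Δ → ClassC (p + d) X →
    ∃ H : ℕ → Set Y, Thins p H ∧ ∀ y, (∀ k, y ∉ H k) →
      ∀ (F F' : Type) [TopologicalSpace F] [T2Space F] [ChartedSpace (Cm d) F]
        [TopologicalSpace F'] [ChartedSpace (Cm d) F'] (i : F → X) (π : F' → F),
        Fbr (p + d) d f y i → IsCover d π → TorSympl d F' →
        kY (p + d) p f Δ ≤ kX (p + d) Δ

/-- The input T-M: families of elliptic surfaces. -/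
def TMLe : Prop :=
  ∀ (p : ℕ) (X Y : Type) [TopologicalSpace X] [ChartedSpace (Cm (p + 2)) X]
    [TopologicalSpace Y] [ChartedSpace (Cm p) Y] (f : X → Y) (Δ : Set X → ℝ),
    Fibn (p + 2) p f Δ → EllFib (p + 2) p 2 f Δ →
    ∃ H : ℕ → Set Y, Thins p H ∧ ∀ y, (∀ k, y ∉ H k) →
      ∀ (F : Type) [TopologicalSpace F] [T2Space F] [ChartedSpace (Cm 2) F] (i : F → X),
        Fbr (p + 2) 2 f y i → Function.Injective i →
        kR (p + 2) 2 i Δ + kY (p + 2) p f Δ ≤ kX (p + 2) Δ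

/-- The input for the logarithmic form. -/
def LogLe : Prop :=
  ∀ (n p : ℕ) (X Y : Type) [TopologicalSpace X] [ChartedSpace (Cm n) X]
    [TopologicalSpace Y] [ChartedSpace (Cm p) Y] (f : X → Y) (Δ : Set X → ℝ) (Γ : Set Y → ℝ),
    Fibn n p f Δ → LogBase n p f Δ Γ → kX p Γ ≤ kY n p f Δ

/-- The input T-MM: linked fibrations, very general fibres. -/
def FibLink : Prop :=
  ∀ (p k : ℕ) (X Y X₁ Y₁ : Type) [TopologicalSpace X] [ChartedSpace (Cm (p + k)) X]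
    [TopologicalSpace Y] [ChartedSpace (Cm p) Y] [TopologicalSpace X₁]
    [ChartedSpace (Cm (p + k)) X₁] [TopologicalSpace Y₁] [ChartedSpace (Cm p) Y₁]
    (f : X → Y) (f₁ : X₁ → Y₁) (Δ : Set X → ℝ) (Δ₁ : Set X₁ → ℝ), Fibn (p + k) p f Δ →
    Lnk (p + k) p f Δ f₁ Δ₁ →
    ∀ H₁ : ℕ → Set Y₁, Thins p H₁ → ∃ H : ℕ → Set Y, Thins p H ∧ ∀ y, (∀ j, y ∉ H j) →
      ∀ (F : Type) [TopologicalSpace F] [T2Space F] [ChartedSpace (Cm k) F] (i : F → X),
        Fbr (p + k) k f y i → Function.Injective i → ∃ y₁, (∀ j, y₁ ∉ H₁ j) ∧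
          ∃ (F₁ : Type) (_ : TopologicalSpace F₁) (_ : T2Space F₁) (_ : ChartedSpace (Cm k) F₁)
            (i₁ : F₁ → X₁), Fbr (p + k) k f₁ y₁ i₁ ∧ Function.Injective i₁ ∧
              kR (p + k) k i Δ ≤ kR (p + k) k i₁ Δ₁

theorem kahler_of {n : ℕ} {X : Type} [TopologicalSpace X] [Man n X] (h : Kahler n X) :
    ∃ w : Vale.Agent.P272.K.Chart n X → Vale.Agent.P272.K.Cm n → Matrix (Fin n) (Fin n) ℂ,
      Vale.Agent.P272.K.IsKahler w := by
  obtain ⟨w, hw⟩ := h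
  refine ⟨w, ⟨⟨fun e x hx i j => (hw e hx.1 x hx.2).2.1 i j, fun e x hx => (hw e hx.1 x hx.2).1,
    fun e e' x hx hx' => ?_⟩, fun e x hx i j k => (hw e hx.1 x hx.2).2.2.1 i j k⟩⟩
  exact (hw e hx.1 x hx.2).2.2.2 e' hx'.1 hx'.2 (Vale.Agent.P272.K.jacM e e' x) fun a b => rfl

theorem classC_of {n : ℕ} {X : Type} [TopologicalSpace X] [Man n X] (h : ClassC n X) :
    H303.StatC.ClassC n X := by
  obtain ⟨X₁, t, c, u, hu, hw⟩ := h
  exact ⟨X₁, t, c, u, hu, kahler_of hw⟩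

theorem thins_empty {p : ℕ} {Y : Type} [TopologicalSpace Y] [ChartedSpace (Cm p) Y] :
    Thins p (fun _ => (∅ : Set Y)) := fun _ => by
  refine ⟨isClosed_empty, fun y => ⟨fun _ => 1, contMDiffAt_const, fun h => ?_,
    Filter.Eventually.of_forall fun z hz => hz.elim⟩⟩
  exact one_ne_zero h.self_of_nhds

section
variable {n p d : ℕ} {X Y : Type} [TopologicalSpace X] [ChartedSpace (Cm n) X]
  [TopologicalSpace Y] [ChartedSpace (Cm p) Y] {f : X → Y} {Δ : Set X → ℝ}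

theorem FibGE.mono {F : Type} [TopologicalSpace F] [ChartedSpace (Cm d) F] {i : F → X}
    {a b : WithBot ℕ∞} (h : FibGE n p d f Δ i b) (hab : a ≤ b) : FibGE n p d f Δ i a := by
  rcases h with ⟨h1, h2⟩ | ⟨hC, F', _, _, π, hπ, h⟩
  · exact Or.inl ⟨h1, hab.trans h2⟩
  · refine Or.inr ⟨hC, F', _, _, π, hπ, ?_⟩
    rcases h with ⟨h1, h2⟩ | ⟨r, h1, h2⟩ | ⟨h1, h2⟩
    · exact Or.inl ⟨h1, hab.trans h2⟩
    · exact Or.inr (Or.inl ⟨r, h1, hab.trans h2⟩)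
    · exact Or.inr (Or.inr ⟨h1, hab.trans h2⟩)

theorem union {H H' : ℕ → Set Y} (hH : Thins p H) (hH' : Thins p H') :
    ∃ K : ℕ → Set Y, Thins p K ∧ ∀ y, (∀ j, y ∉ K j) → (∀ j, y ∉ H j) ∧ ∀ j, y ∉ H' j :=
  H64.StatV.thin_union hH hH'

end

/-- **(I)** -/
theorem good (ht : HTLe) (tm : TMLe) {p d : ℕ} (hd : 0 < d) {X Y : Type} [TopologicalSpace X]
    [ChartedSpace (Cm (p + d)) X] [TopologicalSpace Y] [ChartedSpace (Cm p) Y] (f : X → Y)
    (Δ : Set X → ℝ) (hf : Fibn (p + d) p f Δ) :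
    ForAll (p + d) p d f fun F _ _ i => ∀ a : WithBot ℕ∞,
      FibGE (p + d) p d f Δ i a → a + kY (p + d) p f Δ ≤ kX (p + d) Δ := by
  -- relative dimension one
  have h1 : ∃ H : ℕ → Set Y, Thins p H ∧ ∀ y, (∀ j, y ∉ H j) → ∀ (F : Type)
      [TopologicalSpace F] [T2Space F] [ChartedSpace (Cm d) F] (i : F → X),
      Fbr (p + d) d f y i → d = 1 → kR (p + d) d i Δ + kY (p + d) p f Δ ≤ kX (p + d) Δ := by
    by_cases h1 : d = 1
    · subst h1
      obtain ⟨H, hH, hm⟩ := H364.Gen.fin f Δ hf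
      exact ⟨H, hH, fun y hy F _ _ _ i hi _ => (hm y hy F i hi).1.1⟩
    · exact ⟨_, thins_empty, fun y _ F _ _ _ i _ h => absurd h h1⟩
  -- class C
  have h2 : ∃ H : ℕ → Set Y, Thins p H ∧ ∀ y, (∀ j, y ∉ H j) → ∀ (F F' : Type)
      [TopologicalSpace F] [T2Space F] [ChartedSpace (Cm d) F] (i : F → X)
      [TopologicalSpace F'] [ChartedSpace (Cm d) F'] (π : F' → F), Fbr (p + d) d f y i →
      IsCover d π → ClassC (p + d) X →
      (∀ r : ℕ, GaussRank d F' r → ((r : ℕ∞) : WithBot ℕ∞) + kY (p + d) p f Δ ≤ kX (p + d) Δ) ∧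
      (IsGen d F' → kR (p + d) d i Δ + kY (p + d) p f Δ ≤ kX (p + d) Δ) := by
    by_cases hC : ClassC (p + d) X
    · obtain ⟨H, hH, hm⟩ := H303.StatC.forFibres hd f Δ hf (classC_of hC)
      refine ⟨H, hH, fun y hy F F' _ _ _ i _ _ π hi hπ _ => ?_⟩
      obtain ⟨ha, hb⟩ := hm y hy F F' i π hi hπ
      exact ⟨ha, fun h => hb (Or.inl h)⟩
    · exact ⟨_, thins_empty, fun y _ F F' _ _ _ i _ _ π _ _ h => absurd h hC⟩
  -- families of elliptic surfaces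
  have h4 : ∃ H : ℕ → Set Y, Thins p H ∧ ∀ y, (∀ j, y ∉ H j) → ∀ (F : Type)
      [TopologicalSpace F] [T2Space F] [ChartedSpace (Cm d) F] (i : F → X),
      Fbr (p + d) d f y i → EllFib (p + d) p d f Δ → Function.Injective i →
      kR (p + d) d i Δ + kY (p + d) p f Δ ≤ kX (p + d) Δ := by
    by_cases hE : EllFib (p + d) p d f Δ
    · obtain rfl : d = 2 := hE.1
      obtain ⟨H, hH, hm⟩ := tm p X Y f Δ hf hE
      exact ⟨H, hH, fun y hy F _ _ _ i hi _ hinj => hm y hy F i hi hinj⟩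
    · exact ⟨_, thins_empty, fun y _ F _ _ _ i _ h => absurd h hE⟩
  -- products of tori and symplectic manifolds
  have h5 : ∃ H : ℕ → Set Y, Thins p H ∧ ∀ y, (∀ j, y ∉ H j) → ∀ (F F' : Type)
      [TopologicalSpace F] [T2Space F] [ChartedSpace (Cm d) F] (i : F → X)
      [TopologicalSpace F'] [ChartedSpace (Cm d) F'] (π : F' → F), Fbr (p + d) d f y i →
      IsCover d π → ClassC (p + d) X → TorSympl d F' →
      kY (p + d) p f Δ ≤ kX (p + d) Δ := by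
    by_cases hC : ClassC (p + d) X
    · obtain ⟨H, hH, hm⟩ := ht p d X Y f Δ hd hf hC
      exact ⟨H, hH, fun y hy F F' _ _ _ i _ _ π hi hπ _ hs => hm y hy F F' i π hi hπ hs⟩
    · exact ⟨_, thins_empty, fun y _ F F' _ _ _ i _ _ π _ _ h => absurd h hC⟩
  obtain ⟨H₁, hH₁, hm₁⟩ := h1
  obtain ⟨H₂, hH₂, hm₂⟩ := h2
  obtain ⟨H₄, hH₄, hm₄⟩ := h4
  obtain ⟨H₅, hH₅, hm₅⟩ := h5
  obtain ⟨K, hK, hKy⟩ := union hH₁ hH₂
  obtain ⟨K₂, hK₂, hKy₂⟩ := union hK hH₄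
  obtain ⟨K', hK', hKy'⟩ := union hK₂ hH₅
  refine ⟨K', hK', fun y hy F _ _ _ i hi a ha => ?_⟩
  obtain ⟨hy1, hy5⟩ := hKy' y hy
  obtain ⟨hy1, hy4⟩ := hKy₂ y hy1
  obtain ⟨hy1, hy2⟩ := hKy y hy1
  rcases ha with ⟨h1, h2⟩ | ⟨hC, F', _, _, π, hπ, h⟩
  · rcases h1 with h1 | ⟨h1, hinj⟩
    · exact (add_le_add h2 le_rfl).trans (hm₁ y hy1 F i hi h1)
    · exact (add_le_add h2 le_rfl).trans (hm₄ y hy4 F i hi h1 hinj)
  · rcases h with ⟨h1, h2⟩ | ⟨r, h1, h2⟩ | ⟨h2, h4⟩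
    · exact (add_le_add h2 le_rfl).trans ((hm₂ y hy2 F F' i π hi hπ hC).2 h1)
    · exact (add_le_add h2 le_rfl).trans ((hm₂ y hy2 F F' i π hi hπ hC).1 r h1)
    · have := hm₅ y hy5 F F' i π hi hπ hC h2
      exact (add_le_add h4 this).trans (zero_add _).le

section
variable {n p d : ℕ} {X Y : Type} [tX : TopologicalSpace X] [cX : ChartedSpace (Cm n) X]
  [tY : TopologicalSpace Y] [cY : ChartedSpace (Cm p) Y] {f : X → Y} {Δ : Set X → ℝ}

theorem neat_iff : Neat n p f Δ ↔ H303.X.MildExc n p f Δ := Iff.rfl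

theorem kap_le (hf : Fibn n p f Δ) (h : HasNeat n p f Δ) : kO n p f Δ ≤ kY n p f Δ :=
  H303.R.kap_le_linked hf (h.imp id fun ⟨X₁, Y₁, t, c, s, e, f₁, Δ₁, hl, he⟩ =>
    ⟨⟨X₁, Y₁, t, s, c, e, f₁, Δ₁⟩, hl, he⟩)

theorem addLe_of (lg : LogLe) (hf : Fibn n p f Δ) {a : WithBot ℕ∞}
    (h : a + kY n p f Δ ≤ kX n Δ) : AddLe n p f Δ a :=
  ⟨h, fun Γ hΓ => (add_le_add le_rfl (lg n p X Y f Δ Γ hf hΓ)).trans h,
    fun hn => (add_le_add le_rfl (kap_le hf hn)).trans h⟩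

theorem comp_le (comp : KodFCompStmt) {q : ℕ} {Z : Type} [TopologicalSpace Z]
    [ChartedSpace (Cm q) Z] {g : X → Z} {h : Z → Y} (hg : Fibn n q g Δ)
    (hh : Fibn q p h (Bas n q g Δ)) (he : Neat n q g Δ) {a b : WithBot ℕ∞}
    (ha : a + kY n q g Δ ≤ kX n Δ) (hb : b + kY q p h (Bas n q g Δ) ≤ kX q (Bas n q g Δ)) :
    a + b + kY n p (fun x => h (g x)) Δ ≤ kX n Δ := by
  have h1 := comp _ _ _ _ _ _ g h Δ hg hh
  have h2 := H303.X.base_le hg he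
  rw [add_assoc]
  exact (add_le_add le_rfl ((add_le_add le_rfl h1).trans (hb.trans h2))).trans ha

end

/-- one storey -/
theorem some_le (ht : HTLe) (tm : TMLe) {n p d : ℕ} (hn : n = p + d) (hd : 0 < d) {X Y : Type}
    [TopologicalSpace X] [ChartedSpace (Cm n) X] [TopologicalSpace Y] [ChartedSpace (Cm p) Y]
    {f : X → Y} {Δ : Set X → ℝ} {a : WithBot ℕ∞} (hf : Fibn n p f Δ)
    (ha : SomeGE n p d f Δ a) : a + kY n p f Δ ≤ kX n Δ := by
  subst hn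
  obtain ⟨H, hH, hm⟩ := good ht tm hd f Δ hf
  obtain ⟨y, hy, F, _, _, _, i, hi, h⟩ := ha H hH
  exact hm y hy F i hi a h

theorem Tower.pos {p k : ℕ} {X Y : Type} [TopologicalSpace X] [ChartedSpace (Cm (p + k)) X]
    [TopologicalSpace Y] [ChartedSpace (Cm p) Y] {f : X → Y} {Δ : Set X → ℝ} {a : WithBot ℕ∞}
    (h : Tower p k X Y f Δ a) : 0 < k := by
  induction h with
  | one d X Y f Δ a hd hf ha => exact hd
  | step k d X Z Y g h Δ a b hd hg he ha hb ih => omega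
  | cov k X Z Y g h Δ a hf hg he _ ih => exact ih
  | model k X Y X₁ Y₁ f f₁ Δ Δ₁ a hf hs _ ih => exact ih

/-- linked fibrations and generically finite squares -/
theorem dom_le {n p : ℕ} {X Y X₁ Y₁ : Type} [TopologicalSpace X]
    [ChartedSpace (Cm n) X] [TopologicalSpace Y] [ChartedSpace (Cm p) Y] [TopologicalSpace X₁]
    [ChartedSpace (Cm n) X₁] [TopologicalSpace Y₁] [ChartedSpace (Cm p) Y₁] {f : X → Y}
    {f₁ : X₁ → Y₁} {Δ : Set X → ℝ} {Δ₁ : Set X₁ → ℝ} (hn : 0 < n) (hf : Fibn n p f Δ)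
    (hf₁ : Fibn n p f₁ Δ₁) (hs : Dom n p f₁ Δ₁ f Δ) :
    kX n Δ₁ ≤ kX n Δ ∧ kY n p f Δ ≤ kY n p f₁ Δ₁ := by
  rcases hs with hs | ⟨u, v, B, hu, hv, hc, hus, ho, hB, hle⟩
  · exact (H303.R.link_le n p X Y X₁ Y₁ f f₁ Δ Δ₁ hf₁ hs).2
  · exact H495.DC.desc_all hn hf hf₁ hu hv hc hus ho hB hle

/-- models and generically finite squares, the very general fibres -/
theorem dom_fib (fm : FibLink) {p k : ℕ} {X Y X₁ Y₁ : Type} [TopologicalSpace X]
    [ChartedSpace (Cm (p + k)) X] [TopologicalSpace Y] [ChartedSpace (Cm p) Y]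
    [TopologicalSpace X₁] [ChartedSpace (Cm (p + k)) X₁] [TopologicalSpace Y₁]
    [ChartedSpace (Cm p) Y₁] {f : X → Y} {f₁ : X₁ → Y₁} {Δ : Set X → ℝ} {Δ₁ : Set X₁ → ℝ}
    (hf : Fibn (p + k) p f Δ) (hf₁ : Fibn (p + k) p f₁ Δ₁) (hs : Dom (p + k) p f₁ Δ₁ f Δ)
    {H₁ : ℕ → Set Y₁} (hH₁ : Thins p H₁) : ∃ H : ℕ → Set Y, Thins p H ∧ ∀ y, (∀ j, y ∉ H j) →
      ∀ (F : Type) [TopologicalSpace F] [T2Space F] [ChartedSpace (Cm k) F] (i : F → X),
        Fbr (p + k) k f y i → Function.Injective i → ∃ y₁, (∀ j, y₁ ∉ H₁ j) ∧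
          ∃ (F₁ : Type) (_ : TopologicalSpace F₁) (_ : T2Space F₁) (_ : ChartedSpace (Cm k) F₁)
            (i₁ : F₁ → X₁), Fbr (p + k) k f₁ y₁ i₁ ∧ Function.Injective i₁ ∧
              kR (p + k) k i Δ ≤ kR (p + k) k i₁ Δ₁ := by
  rcases hs with hs | ⟨u, v, B, hu, hv, hc, hus, ho, -, -⟩
  · exact fm p k X Y X₁ Y₁ f f₁ Δ Δ₁ hf hs H₁ hH₁
  · have : IsManifold 𝓘(ℂ, Cm (p + k)) ω X := hf.manifold.1
    have : IsManifold 𝓘(ℂ, Cm p) ω Y := hf.manifold.2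
    obtain ⟨H, hH, hm⟩ := H495.DC.fibDom hf hf₁ (H495.DC.contMDiff_of hu) (H495.DC.contMDiff_of hv)
      hc hus ho hH₁
    refine ⟨H, hH, fun y hy F _ _ _ i hi hinj => ?_⟩
    obtain ⟨y₁, F₁, _, _, _, i₁, h1, h2, h3, h4⟩ := hm y hy F i hi hinj
    exact ⟨y₁, h1, F₁, inferInstance, inferInstance, inferInstance, i₁, h2, h3, h4⟩

theorem Top.pos {p k : ℕ} {X Y : Type} [TopologicalSpace X] [ChartedSpace (Cm (p + k)) X]
    [TopologicalSpace Y] [ChartedSpace (Cm p) Y] {f : X → Y} {Δ : Set X → ℝ}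
    (h : Top p k X Y f Δ) : 0 < k := by
  induction h with
  | one d X Y f Δ hd hf ha => exact hd
  | step k d X Z Y g h Δ hd hg he hc hb => omega
  | model k X Y X₁ Y₁ f f₁ Δ Δ₁ hf hs _ ih => exact ih

/-- **(A)** -/
theorem tower_le (ht : HTLe) (tm : TMLe) (comp : KodFCompStmt) {p k : ℕ}
    {X Y : Type} [TopologicalSpace X] [ChartedSpace (Cm (p + k)) X] [TopologicalSpace Y]
    [ChartedSpace (Cm p) Y] {f : X → Y} {Δ : Set X → ℝ} {a : WithBot ℕ∞}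
    (h : Tower p k X Y f Δ a) :
    Fibn (p + k) p f Δ ∧ a + kY (p + k) p f Δ ≤ kX (p + k) Δ := by
  induction h with
  | one d X Y f Δ a hd hf ha => exact ⟨hf, some_le ht tm rfl hd hf ha⟩
  | step k d X Z Y g h Δ a b hd hg he ha hb ih =>
    obtain ⟨ih1, ih2⟩ := ih
    exact ⟨H64.TW.comp_fib hg ih1, comp_le comp hg ih1 he (some_le ht tm (by omega) hd hg ha) ih2⟩
  | cov k X Z Y g h Δ a hf hg he _ ih =>
    exact ⟨hf, H495.Cov.cov_z hf ⟨hg.1.1, hg.2, hg.1.2⟩ he ih.1 ih.2⟩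
  | model k X Y X₁ Y₁ f f₁ Δ Δ₁ a hf hs htw ih =>
    obtain ⟨ih1, ih2⟩ := ih
    obtain ⟨h1, h2⟩ := dom_le (by have := Tower.pos htw; omega) hf ih1 hs
    exact ⟨hf, (add_le_add le_rfl h2).trans (ih2.trans h1)⟩

/-- a bound for the very general fibres of `g` -/
theorem not_some {n p d : ℕ} {X Z : Type} [TopologicalSpace X] [ChartedSpace (Cm n) X]
    [TopologicalSpace Z] [ChartedSpace (Cm p) Z] {g : X → Z} {Δ : Set X → ℝ} {a : WithBot ℕ∞}
    (hcond : ForAll n p d g fun G _ _ i => Function.Injective i →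
      FibGE n p d g Δ i (kR n d i Δ))
    (h : ¬ SomeGE n p d g Δ a) : ∃ H : ℕ → Set Z, Thins p H ∧
      ∀ z, (∀ j, z ∉ H j) → ∀ (G : Type) [TopologicalSpace G] [T2Space G]
        [ChartedSpace (Cm d) G] (i : G → X), Fbr n d g z i → Function.Injective i →
        ¬ a ≤ kR n d i Δ := by
  unfold SomeGE at h
  push Not at h
  obtain ⟨H, hH, hz⟩ := h
  obtain ⟨H₂, hH₂, hz₂⟩ := hcond
  obtain ⟨K, hK, hKy⟩ := union hH hH₂
  refine ⟨K, hK, fun z hzK G _ _ _ i hi hinj hle => ?_⟩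
  exact hz z (hKy z hzK).1 G inferInstance inferInstance inferInstance i hi
    ((hz₂ z (hKy z hzK).2 G i hi hinj).mono hle)

theorem exists_kod {n p d : ℕ} {X Z : Type} [TopologicalSpace X] [ChartedSpace (Cm n) X]
    [TopologicalSpace Z] [ChartedSpace (Cm p) Z] {g : X → Z} {Δ : Set X → ℝ}
    (hcond : ForAll n p d g fun G _ _ i => Function.Injective i →
      FibGE n p d g Δ i (kR n d i Δ)) :
    ∃ a : WithBot ℕ∞, (a = ⊥ ∨ SomeGE n p d g Δ a) ∧ ∃ H : ℕ → Set Z, Thins p H ∧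
      ∀ z, (∀ j, z ∉ H j) → ∀ (G : Type) [TopologicalSpace G] [T2Space G]
        [ChartedSpace (Cm d) G] (i : G → X), Fbr n d g z i → Function.Injective i →
        kR n d i Δ ≤ a := by
  classical
  by_cases h : ∃ r : ℕ, r ≤ d ∧ SomeGE n p d g Δ ((r : ℕ∞) : WithBot ℕ∞)
  · let P : ℕ → Prop := fun r => SomeGE n p d g Δ ((r : ℕ∞) : WithBot ℕ∞)
    obtain ⟨r₀, hr₀, hP₀⟩ := h
    have hmax : P (Nat.findGreatest P d) := Nat.findGreatest_spec (P := P) hr₀ hP₀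
    have hle : Nat.findGreatest P d ≤ d := Nat.findGreatest_le d
    have hgt : ∀ k, Nat.findGreatest P d < k → k ≤ d → ¬ P k := fun k h1 h2 =>
      Nat.findGreatest_is_greatest h1 h2
    generalize Nat.findGreatest P d = r at hmax hle hgt
    refine ⟨((r : ℕ∞) : WithBot ℕ∞), Or.inr hmax, ?_⟩
    rcases hle.eq_or_lt with h1 | h1
    · subst h1
      exact ⟨_, thins_empty, fun z _ G _ _ _ i _ _ => H740.kodR_le i Δ⟩
    · obtain ⟨H, hH, hz⟩ := not_some hcond (hgt (r + 1) (Nat.lt_succ_self r) h1)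
      exact ⟨H, hH, fun z hzH G _ _ _ i hi hinj => H740.kodR_lt (hz z hzH G i hi hinj)⟩
  · have h0 : ¬ SomeGE n p d g Δ (((0 : ℕ) : ℕ∞) : WithBot ℕ∞) := fun h0 =>
      h ⟨0, Nat.zero_le d, h0⟩
    obtain ⟨H, hH, hz⟩ := not_some hcond h0
    exact ⟨⊥, Or.inl rfl, H, hH, fun z hzH G _ _ _ i hi hinj =>
      H740.kodR_bot (hz z hzH G i hi hinj)⟩

/-- the first storey -/
theorem top_le (ht : HTLe) (tm : TMLe) (comp : KodFCompStmt) {p k d : ℕ}
    (hd : 0 < d) {X Z Y : Type} [TopologicalSpace X] [ChartedSpace (Cm (p + (k + d))) X]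
    [TopologicalSpace Z] [ChartedSpace (Cm (p + k)) Z] [TopologicalSpace Y] [ChartedSpace (Cm p) Y]
    {g : X → Z} {h : Z → Y} {Δ : Set X → ℝ} (hg : Fibn (p + (k + d)) (p + k) g Δ)
    (he : Neat (p + (k + d)) (p + k) g Δ)
    (hcond : ForAll (p + (k + d)) (p + k) d g fun G _ _ i => Function.Injective i →
      FibGE (p + (k + d)) (p + k) d g Δ i (kR (p + (k + d)) d i Δ))
    (hb : Tower p k Z Y h (Bas (p + (k + d)) (p + k) g Δ) ((k : ℕ∞) : WithBot ℕ∞)) :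
    ForAll (p + (k + d)) p (k + d) (fun x => h (g x)) fun F _ _ i =>
      Function.Injective i → kR (p + (k + d)) (k + d) i Δ +
        kY (p + (k + d)) p (fun x => h (g x)) Δ ≤ kX (p + (k + d)) Δ := by
  have : IsManifold 𝓘(ℂ, Cm (p + k)) ω Z := hg.manifold.2
  obtain ⟨a, ha, H, hH, hz⟩ := exists_kod hcond
  have hh := (tower_le ht tm comp hb).1
  have hh0 : IsFibration (Cm (p + k)) (Cm p) h (fun _ => 0) :=
    ⟨hh.hausdorff, hh.compact, hh.connected, hh.manifold, hh.hol, hh.fibres, H740.isSNC_zero⟩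
  obtain ⟨H', hH', hy⟩ := H740.easyI (Nat.add_assoc p k d).symm g h Δ hg hh0 a H hH hz
  refine ⟨H', hH', fun y hyH F _ _ _ i hi hinj => ?_⟩
  have h1 := hy y hyH F i hi hinj
  rcases ha with rfl | ha
  · rw [WithBot.bot_add, le_bot_iff] at h1
    have h2 : kR (p + (k + d)) (k + d) i Δ = ⊥ := h1
    rw [h2, WithBot.bot_add]
    exact bot_le
  · have h2 := (tower_le ht tm comp (Tower.step p k d X Z Y g h Δ a _ hd hg he ha hb)).2
    exact (add_le_add h1 le_rfl).trans h2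

/-- **(B)** -/
theorem top_all (ht : HTLe) (tm : TMLe) (comp : KodFCompStmt) (fm : FibLink)
    {p k : ℕ} {X Y : Type} [TopologicalSpace X] [ChartedSpace (Cm (p + k)) X]
    [TopologicalSpace Y] [ChartedSpace (Cm p) Y] {f : X → Y} {Δ : Set X → ℝ}
    (h : Top p k X Y f Δ) : Fibn (p + k) p f Δ ∧ ForAll (p + k) p k f fun F _ _ i =>
      Function.Injective i → kR (p + k) k i Δ + kY (p + k) p f Δ ≤ kX (p + k) Δ := by
  induction h with
  | one d X Y f Δ hd hf ha =>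
    obtain ⟨H, hH, hm⟩ := good ht tm hd f Δ hf
    obtain ⟨H₂, hH₂, hm₂⟩ := ha
    obtain ⟨K, hK, hKy⟩ := union hH hH₂
    exact ⟨hf, K, hK, fun y hy F _ _ _ i hi hinj =>
      hm y (hKy y hy).1 F i hi _ (hm₂ y (hKy y hy).2 F i hi hinj)⟩
  | step k d X Z Y g h Δ hd hg he hc hb =>
    exact ⟨H64.TW.comp_fib hg (tower_le ht tm comp hb).1, top_le ht tm comp hd hg he hc hb⟩
  | model k X Y X₁ Y₁ f f₁ Δ Δ₁ hf hs htop ih =>
    obtain ⟨ih1, H₁, hH₁, ih2⟩ := ih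
    obtain ⟨h1, h2⟩ := dom_le (by have := Top.pos htop; omega) hf ih1 hs
    obtain ⟨H, hH, hm⟩ := dom_fib fm hf ih1 hs hH₁
    refine ⟨hf, H, hH, fun y hy F _ _ _ i hi hinj => ?_⟩
    obtain ⟨y₁, hy₁, F₁, _, _, _, i₁, hi₁, hinj₁, hle⟩ := hm y hy F i hi hinj
    exact (add_le_add hle h2).trans ((ih2 y₁ hy₁ F₁ i₁ hi₁ hinj₁).trans h1)

/-- **Towers v3** -/
theorem main (ht : HTLe) (tm : TMLe) (lg : LogLe) (comp : KodFCompStmt)
    (fm : FibLink) (p k : ℕ) (X Y : Type) [TopologicalSpace X] [Man (p + k) X]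
    [TopologicalSpace Y] [Man p Y] (f : X → Y) (Δ : Set X → ℝ) :
    (∀ a : WithBot ℕ∞, Tower p k X Y f Δ a → AddLe (p + k) p f Δ a) ∧
      (Top p k X Y f Δ → ForAll (p + k) p k f fun F _ _ i => Function.Injective i →
        AddLe (p + k) p f Δ (kR (p + k) k i Δ)) := by
  refine ⟨fun a ha => ?_, fun htop => ?_⟩
  · obtain ⟨hf, h⟩ := tower_le ht tm comp ha
    exact addLe_of lg hf h
  · obtain ⟨hf, H, hH, hm⟩ := top_all ht tm comp fm htop
    exact ⟨H, hH, fun y hy F _ _ _ i hi hinj => addLe_of lg hf (hm y hy F i hi hinj)⟩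

end Vale.Agent.P281.H64.Z11
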