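import Mathlib.AlgebraicTopology.FundamentalGroupoid.SimplyConnected
import Mathlib.Analysis.Matrix.PosDef
import Vale.Agent.P281.H511.Surf.Defs

/-!
# P281: definitions for the statement on towers of fibrations in Fujiki's class
-/

open Set Filter
open Vale.Agent.P281 Vale.Agent.P281.H713.TZ.S
open Vale.Agent.P281.H511.Surf (IsFibration IsFibre)
open scoped Manifold ContDiff Topology

noncomputable section

namespace Vale.Agent.P281.H64.Z11

/-! ### Abbreviations -/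

/-- `X` has an atlas with values in `ℂ^n` (`X` is a complex manifold of dimension `n` if the changes of
charts are holomorphic). -/
abbrev Man (n : ℕ) (X : Type) [TopologicalSpace X] : Type := ChartedSpace (Cm n) X

/-- Linear forms on `ℂ^d`. -/
abbrev Cov (d : ℕ) : Type := Cm d →L[ℂ] ℂ

section
variable (n p : ℕ) {X Y : Type} [tX : TopologicalSpace X] [cX : Man n X]
  [tY : TopologicalSpace Y] [cY : Man p Y]

/-- `φ` is holomorphic at `x`. -/
abbrev Hol (φ : X → ℂ) (x : X) : Prop := J.HolAt (Cm n) φ x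

/-- The differential `dφ` at `x`. -/
abbrev df (φ : X → ℂ) (x : X) : Cov n := J.dif (Cm n) φ x

/-- `D` is a prime divisor. -/
abbrev Prime (D : Set X) : Prop := J.IsPrime (Cm n) D

/-- `f : (X, Δ) → Y` is a fibration: see `IsFibration`. -/
abbrev Fibn (f : X → Y) (Δ : Set X → ℝ) : Prop := IsFibration (Cm n) (Cm p) f Δ

/-- `i : F → X` is the fibre of `f` over `y`, or an immersion in this fibre: see `IsFibre`. -/
abbrev Fbr (d : ℕ) {X Y F : Type} [TopologicalSpace X] [Man n X] [TopologicalSpace F]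
    [Man d F] (f : X → Y) (y : Y) (i : F → X) : Prop := IsFibre (Cm n) (Cm d) f y i

/-- `H` is a countable family of thin closed sets: locally, `H_j` is contained in the zero set of a
nonzero holomorphic function. -/
def Thins (H : ℕ → Set X) : Prop := ∀ j, IsClosed (H j) ∧ ∀ x, ∃ g, Hol n g x ∧
  (¬ ∀ᶠ z in 𝓝 x, g z = 0) ∧ ∀ᶠ z in 𝓝 x, z ∈ H j → g z = 0

/-- `κ(X, K_X + Δ)` -/
abbrev kX (Δ : Set X → ℝ) : WithBot ℕ∞ := kodX (Cm n) Δ

/-- `κ(F, K_F + Δ|F)` -/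
abbrev kR (d : ℕ) {F : Type} [TopologicalSpace F] [Man d F] (i : F → X)
    (Δ : Set X → ℝ) : WithBot ℕ∞ := kodR (Cm n) (Cm d) i Δ

/-- The orbifold base `B(f, Δ)`. -/
abbrev Bas (f : X → Y) (Δ : Set X → ℝ) : Set Y → ℝ := base (Cm n) (Cm p) f Δ

/-- The maximal rank of the meromorphic pluricanonical forms of `Y` whose pull-backs to `X` have poles
at most `m Δ`. -/
abbrev kY (f : X → Y) (Δ : Set X → ℝ) : WithBot ℕ∞ := kodF n p Δ (id : X → X) f

/-- Campana's orbifold base dimension `κ(f | Δ)`. -/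
abbrev kO (f : X → Y) (Δ : Set X → ℝ) : WithBot ℕ∞ :=
  kap (Cm n) (Cm p) ⟨X, Y, tX, tY, cX, cY, f, Δ⟩

/-- The components of `B(f, Δ)` which contain `f(D)`. -/
def Over (f : X → Y) (Δ : Set X → ℝ) (D : Set X) : Set (Set Y) :=
  {G | Bas n p f Δ G ≠ 0 ∧ f '' D ⊆ G}

/-- The multiplicity `ord_D(f^* G)`. -/
def ordD (f : X → Y) (D : Set X) (G : Set Y) : ℕ :=
  sInf {k : ℕ | ∃ x ∈ D, ∃ e g w, J.IsLocalEq (Cm n) D e x ∧ J.IsLocalEq (Cm p) G g (f x) ∧
    Hol n w x ∧ w x ≠ 0 ∧ ∀ᶠ z in 𝓝 x, g (f z) = e z ^ k * w z}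

/-- The exceptional prime divisors `D` of `f` (`f(D)` is neither `Y` nor a prime divisor) are
harmless: `B = B(f, Δ)` has simple normal crossings near `f(D)`, and at most one component of `B`
contains `f(D)`, or `f(D)` contains no nonempty open subset of the intersection of the components of
`B` which contain it, or `∑_G ord_D(f^* G) / m(f, Δ; G) ≥ 1 / m_Δ(D)`, the sum over these components
(for instance `Δ(D) = 1`). -/
def Neat (f : X → Y) (Δ : Set X → ℝ) : Prop :=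
  ∀ D, Prime n D → closure (f '' D) = univ ∨ Prime p (closure (f '' D)) ∨
    (∃ U, IsOpen U ∧ f '' D ⊆ U ∧ ∀ y ∈ U, SNCAt (Cm p) (Bas n p f Δ) y) ∧
      ((Over n p f Δ D).Subsingleton ∨
        (∀ V, IsOpen V → V ∩ ⋂₀ Over n p f Δ D ⊆ f '' D → V ∩ ⋂₀ Over n p f Δ D = ∅) ∨
        1 - Δ D ≤ ∑ᶠ G ∈ Over n p f Δ D, (ordD n p f D G : ℝ) * (1 - Bas n p f Δ G))

/-- `f : (X, Δ) → Y` and `f₁ : (X₁, Δ₁) → Y₁` are linked by a chain of commutative squares as in the
problem. -/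
def Lnk {X₁ Y₁ : Type} [t : TopologicalSpace X₁] [c : Man n X₁] [s : TopologicalSpace Y₁]
    [e : Man p Y₁] (f : X → Y) (Δ : Set X → ℝ) (f₁ : X₁ → Y₁) (Δ₁ : Set X₁ → ℝ) : Prop :=
  Linked (Cm n) (Cm p) ⟨X, Y, tX, tY, cX, cY, f, Δ⟩ ⟨X₁, Y₁, t, s, c, e, f₁, Δ₁⟩

/-- `Y` is a curve, or `f` is linked to a neat fibration (for instance: `f` is neat, or has a neat
model). -/
def HasNeat (f : X → Y) (Δ : Set X → ℝ) : Prop :=
  p = 1 ∨ ∃ (X₁ Y₁ : Type) (_ : TopologicalSpace X₁) (_ : Man n X₁) (_ : TopologicalSpace Y₁)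
    (_ : Man p Y₁) (f₁ : X₁ → Y₁) (Δ₁ : Set X₁ → ℝ), Lnk n p f Δ f₁ Δ₁ ∧ Neat n p f₁ Δ₁

/-- `Γ` is a reduced divisor of `Y` with simple normal crossings (or `0`), and the prime divisors of
`X` which are mapped into `Γ` have coefficient `1` in `Δ`. -/
def LogBase (f : X → Y) (Δ : Set X → ℝ) (Γ : Set Y → ℝ) : Prop :=
  J.IsSNC (Cm p) Γ ∧ (∀ G, Γ G = 0 ∨ Γ G = 1) ∧
    ∀ E G, Prime n E → Γ G = 1 → f '' E ⊆ G → Δ E = 1

/-- `κ(X, K_X + Δ) ≥ a + k`, `k = kY f Δ`; `κ(X, K_X + Δ) ≥ a + κ(Y, K_Y + Γ)` if `LogBase`; and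
`κ(X, K_X + Δ) ≥ a + κ(f | Δ)` if `HasNeat`. -/
def AddLe (f : X → Y) (Δ : Set X → ℝ) (a : WithBot ℕ∞) : Prop :=
  a + kY n p f Δ ≤ kX n Δ ∧ (∀ Γ, LogBase n p f Δ Γ → a + kX p Γ ≤ kX n Δ) ∧
    (HasNeat n p f Δ → a + kO n p f Δ ≤ kX n Δ)

end

/-! ### The fibres -/

section
variable (d : ℕ) {F : Type} [TopologicalSpace F] [Man d F]

/-- `η` is a closed holomorphic 1-form: locally, the differential of a holomorphic function. -/
def Closed1 (η : F → Cov d) : Prop :=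
  ∀ x, ∃ ψ : F → ℂ, Hol d ψ x ∧ ∀ᶠ z in 𝓝 x, η z = df d ψ z

/-- `φ` is, near `x`, a primitive of a closed holomorphic 1-form of `F`. -/
def IsPrim (φ : F → ℂ) (x : F) : Prop :=
  Hol d φ x ∧ ∃ η : F → Cov d, (∀ᶠ z in 𝓝 x, η z = df d φ z) ∧ Closed1 d η

/-- The coefficient of `dφ_1 ∧ ⋯ ∧ dφ_d` in the chart of `F` at `x`. -/
def coef (x : F) (φ : Fin d → F → ℂ) (v : Cm d) : ℂ :=
  (Matrix.of fun a b => fderiv ℂ (fun u => φ a ((chartAt (Cm d) x).symm u)) v
    (Pi.single b 1)).det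

/-- The Gauss map of `F`, given by the products `s = η_1 ∧ ⋯ ∧ η_d` of closed holomorphic 1-forms
(sections of `K_F`), has rank at least `r` at some point: there are `s_0, …, s_r` with `s_0 ≠ 0` and
`(s_1 / s_0, …, s_r / s_0)` submersive at `x`. -/
def GaussRank (F : Type) [TopologicalSpace F] [Man d F] (r : ℕ) : Prop :=
  ∃ (x : F) (φ : Fin (r + 1) → Fin d → F → ℂ), (∀ k a, IsPrim d (φ k a) x) ∧
    coef d x (φ 0) (chartAt (Cm d) x x) ≠ 0 ∧ Function.Surjective fun (ξ : Cm d) (k : Fin r) =>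
      fderiv ℂ (fun v => coef d x (φ k.succ) v / coef d x (φ 0) v) (chartAt (Cm d) x x) ξ

/-- The closed holomorphic 1-forms of `F` generate its cotangent spaces (that is, if `F` is compact:
`F` is immersed in a complex torus). -/
def IsGen (F : Type) [TopologicalSpace F] [Man d F] : Prop :=
  ∀ (x : F) (v : Cm d), v ≠ 0 → ∃ η : F → Cov d, Closed1 d η ∧ η x v ≠ 0

/-- `α` is a closed holomorphic 2-form: locally, a sum of forms `dψ ∧ dφ`, where `ψ` and `φ` are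
holomorphic functions. -/
def Closed2 (α : F → Cm d → Cm d → ℂ) : Prop :=
  ∀ x, ∃ (m : ℕ) (ψ φ : Fin m → F → ℂ), (∀ j, Hol d (ψ j) x ∧ Hol d (φ j) x) ∧
    ∀ᶠ z in 𝓝 x, ∀ u v, α z u v = ∑ j, (df d (ψ j) z u * df d (φ j) z v -
      df d (ψ j) z v * df d (φ j) z u)

/-- The closed holomorphic 2-forms of `F` are the multiples of one form, which is nondegenerate at
some point (for instance: K3 surfaces, irreducible holomorphic symplectic manifolds). -/
def Sympl (F : Type) [TopologicalSpace F] [Man d F] : Prop :=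
  ∃ α : F → Cm d → Cm d → ℂ, Closed2 d α ∧ (∃ x, ∀ u, (∀ v, α x u v = 0) → u = 0) ∧
    ∀ β : F → Cm d → Cm d → ℂ, Closed2 d β → ∃ c : ℂ, ∀ x u v, β x u v = c * α x u v

/-- `π : F' → F` is a finite étale covering of the compact connected manifold `F` by a compact
connected manifold: a holomorphic immersion in `F`, the fibre of `F → {pt}`. -/
def IsCover {F' : Type} [TopologicalSpace F'] [Man d F'] (π : F' → F) : Prop :=
  T2Space F' ∧ Fbr d d (fun _ : F => ()) () π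

/-- `F` is a product `T × H`, where `T = ℂ^a / Λ` is a complex torus (if `F` is compact) or a point
(if `a = 0`), and `H` is a compact simply connected symplectic manifold (see `Sympl`), `dim H ≥ 2`:
`g : ℂ^a × H → F` is the covering, with local inverses `(ζ, ξ)`, which are holomorphic and immersive. -/
def TorSympl (F : Type) [TopologicalSpace F] [Man d F] : Prop :=
  ∃ (a h : ℕ) (H : Type) (_ : TopologicalSpace H) (_ : Man h H) (Λ : AddSubgroup (Cm a))
    (g : Cm a → H → F), a + h = d ∧ 2 ≤ h ∧ IsCover h (id : H → H) ∧ SimplyConnectedSpace H ∧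
    Sympl h H ∧ (∀ y, ∃ z x, g z x = y) ∧ (∀ z x z' x', g z x = g z' x' ↔ z' - z ∈ Λ ∧ x = x') ∧
    ∀ z x, ∃ (ζ : F → Cm a) (ξ : F → H), ζ (g z x) = z ∧ ξ (g z x) = x ∧
      ContinuousAt ξ (g z x) ∧ (∀ᶠ y in 𝓝 (g z x), g (ζ y) (ξ y) = y) ∧
      (∀ j, Hol d (fun y => ζ y j) (g z x)) ∧
      (∀ ψ, Hol h ψ x → Hol d (fun y => ψ (ξ y)) (g z x)) ∧
      ∀ v, (∀ j, df d (fun y => ζ y j) (g z x) v = 0) →
        (∀ ψ, Hol h ψ x → df d (fun y => ψ (ξ y)) (g z x) v = 0) → v = 0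

end

/-- `∂φ/∂z_j = (∂φ/∂x_j - i ∂φ/∂y_j)/2` at `z`. -/
def dz {n : ℕ} (j : Fin n) (φ : Cm n → ℂ) (z : Cm n) : ℂ :=
  (fderiv ℝ φ z (Pi.single j 1) - Complex.I * fderiv ℝ φ z (Pi.single j Complex.I)) / 2

open scoped ComplexOrder in
/-- The complex manifold `X` has a Kähler metric: smooth positive definite Hermitian matrices `(w_ij)` in
the charts of `X`, such that `∑ w_ij dz_i ∧ dz̄_j` does not depend on the chart, and is closed. -/
def Kahler (n : ℕ) (X : Type) [TopologicalSpace X] [Man n X] : Prop :=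
  ∃ w : OpenPartialHomeomorph X (Cm n) → Cm n → Matrix (Fin n) (Fin n) ℂ,
    ∀ e ∈ atlas (Cm n) X, ∀ x ∈ e.source, (w e (e x)).PosDef ∧
      (∀ i j, ContDiffAt ℝ ∞ (fun z => w e z i j) (e x)) ∧
      (∀ i j k, dz k (fun z => w e z i j) (e x) = dz i (fun z => w e z k j) (e x)) ∧
      ∀ e' ∈ atlas (Cm n) X, x ∈ e'.source → ∀ J : Matrix (Fin n) (Fin n) ℂ,
        (∀ a b, J a b = dz b (fun z => e' (e.symm z) a) (e x)) →
        w e (e x) = J.transpose * w e' (e' x) * J.map (starRingEnd ℂ)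

/-- `X` has a proper modification `u : X₁ → X` with a Kähler manifold `X₁` (that is, if `X` is
compact: `X` is in Fujiki's class `𝒞`). -/
def ClassC (n : ℕ) (X : Type) [TopologicalSpace X] [Man n X] : Prop :=
  ∃ (X₁ : Type) (_ : TopologicalSpace X₁) (_ : Man n X₁) (u : X₁ → X),
    IsModif (Cm n) u ∧ Kahler n X₁

/-- `f : (X, Δ) → Y` is a family of elliptic surfaces: `f = h ∘ g` for two fibrations `g : X → Z` and
`h : Z → Y` of relative dimension one, no component of `Δ` is mapped onto `Z`, and off any countable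
family of thin closed sets `g` has a fibre with a closed holomorphic 1-form without zeros (that is, an
elliptic curve). -/
def EllFib (n p d : ℕ) {X Y : Type} [TopologicalSpace X] [Man n X] [TopologicalSpace Y] [Man p Y]
    (f : X → Y) (Δ : Set X → ℝ) : Prop :=
  d = 2 ∧ ∃ (Z : Type) (_ : TopologicalSpace Z) (_ : Man (p + 1) Z) (g : X → Z) (h : Z → Y),
    Fibn n (p + 1) g Δ ∧ Fibn (p + 1) p h (fun _ => 0) ∧ (∀ x, f x = h (g x)) ∧
    (∀ D, Δ D ≠ 0 → closure (g '' D) ≠ univ) ∧ ∀ H : ℕ → Set Z, Thins (p + 1) H →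
      ∃ z, (∀ j, z ∉ H j) ∧ ∃ (G : Type) (_ : TopologicalSpace G) (_ : T2Space G) (_ : Man 1 G)
        (i : G → X) (η : G → Cov 1), Fbr n 1 g z i ∧ Closed1 1 η ∧ ∀ x v, η x v = 0 → v = 0

/-- `a ≤ κ(F, K_F + Δ|F)` and `d = 1` or `f` is a family of elliptic surfaces; or `X` is in Fujiki's
class and some finite étale covering `F'` of `F` is immersed in a complex torus and
`a ≤ κ(F, K_F + Δ|F)`, or has a Gauss map of rank at least `a`, or `a ≤ 0` and `F'` is the product of a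
complex torus (or a point) and a simply connected symplectic manifold (see `TorSympl`). -/
def FibGE (n p d : ℕ) {X Y F : Type} [TopologicalSpace X] [Man n X] [TopologicalSpace Y] [Man p Y]
    [TopologicalSpace F] [Man d F] (f : X → Y) (Δ : Set X → ℝ) (i : F → X)
    (a : WithBot ℕ∞) : Prop :=
  ((d = 1 ∨ EllFib n p d f Δ ∧ Function.Injective i) ∧ a ≤ kR n d i Δ) ∨
    ClassC n X ∧ ∃ (F' : Type) (_ : TopologicalSpace F')
      (_ : Man d F') (π : F' → F), IsCover d π ∧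
        ((IsGen d F' ∧ a ≤ kR n d i Δ) ∨
          (∃ r : ℕ, GaussRank d F' r ∧ a ≤ ((r : ℕ∞) : WithBot ℕ∞)) ∨
          TorSympl d F' ∧ a ≤ 0)

/-! ### Towers -/

section
variable (n p d : ℕ) {X Y : Type} [TopologicalSpace X] [Man n X]
  [TopologicalSpace Y] [Man p Y] (f : X → Y) (Δ : Set X → ℝ)

/-- There are very general fibres with `FibGE`. -/
def SomeGE (a : WithBot ℕ∞) : Prop :=
  ∀ H : ℕ → Set Y, Thins p H → ∃ y, (∀ j, y ∉ H j) ∧ ∃ (F : Type) (_ : TopologicalSpace F)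
    (_ : T2Space F) (_ : Man d F) (i : F → X), Fbr n d f y i ∧ FibGE n p d f Δ i a

/-- `P` holds for the fibres of `f` over the points off countably many thin closed sets. -/
def ForAll (P : ∀ (F : Type) [TopologicalSpace F] [Man d F], (F → X) → Prop) : Prop :=
  ∃ H : ℕ → Set Y, Thins p H ∧ ∀ y, (∀ j, y ∉ H j) → ∀ (F : Type) [TopologicalSpace F]
    [T2Space F] [Man d F] (i : F → X), Fbr n d f y i → P F i

end

/-- `u : X₁ → X` is holomorphic: it is continuous, and pulls back holomorphic functions. -/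
def HolMap (n m : ℕ) {X₁ X : Type} [TopologicalSpace X₁] [Man n X₁] [TopologicalSpace X] [Man m X]
    (u : X₁ → X) : Prop :=
  Continuous u ∧ ∀ x φ, Hol m φ (u x) → Hol n (fun z => φ (u z)) x

/-- `B` is an analytic subset (locally the set of common zeros of holomorphic functions) of codimension
at least two (contained in a countable union of closed sets, which are locally contained in
submanifolds of codimension two). -/
def Codim2 (n : ℕ) {X : Type} [TopologicalSpace X] [Man n X] (B : Set X) : Prop :=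
  (∀ x, ∃ (U : Set X) (ι : Type) (h : ι → X → ℂ), IsOpen U ∧ x ∈ U ∧
    (∀ i, ∀ z ∈ U, Hol n (h i) z) ∧ ∀ z ∈ U, z ∈ B ↔ ∀ i, h i z = 0) ∧
  IsClosed B ∧ ∃ H : ℕ → Set X, (∀ j, IsClosed (H j) ∧ ∀ x ∈ H j, ∃ g : Fin 2 → X → ℂ,
    (∀ a, Hol n (g a) x) ∧ (Function.Surjective fun (ξ : Cm n) (a : Fin 2) => df n (g a) x ξ) ∧
    ∀ᶠ z in 𝓝 x, z ∈ H j → ∀ a, g a z = 0) ∧ B ⊆ ⋃ j, H j

section
variable (n p : ℕ) {X₁ Y₁ X Y : Type} [TopologicalSpace X₁] [Man n X₁] [TopologicalSpace Y₁]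
  [Man p Y₁] [TopologicalSpace X] [Man n X] [TopologicalSpace Y] [Man p Y]

/-- `K_X₁ + Δ₁ ≤ u^*(K_X + Δ)` near `x₁`: `∏ |e_D ∘ u|^Δ(D) ≤ C |det du| ∏ |e_D|^Δ₁(D)`. -/
def CanLe (u : X₁ → X) (Δ₁ : Set X₁ → ℝ) (Δ : Set X → ℝ) (x₁ : X₁) : Prop :=
  ∀ (T₁ : Finset (Set X₁)) (T : Finset (Set X)) (e₁ : Set X₁ → X₁ → ℂ) (e : Set X → X → ℂ),
    (∀ D, D ∈ T₁ ↔ Δ₁ D ≠ 0) → (∀ D, D ∈ T ↔ Δ D ≠ 0) →
    (∀ D ∈ T₁, J.IsLocalEq (Cm n) D (e₁ D) x₁) → (∀ D ∈ T, J.IsLocalEq (Cm n) D (e D) (u x₁)) →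
    ∃ C : ℝ, ∀ᶠ z in 𝓝 x₁, ∏ D ∈ T, ‖e D (u z)‖ ^ Δ D ≤
      C * ‖(fderiv ℂ (chartAt (Cm n) (u x₁) ∘ u ∘ (chartAt (Cm n) x₁).symm)
        (chartAt (Cm n) x₁ z)).det‖ * ∏ D ∈ T₁, ‖e₁ D z‖ ^ Δ₁ D

/-- `f` is linked to `f₁`; or there is a commutative square `f ∘ u = v ∘ f₁` of holomorphic maps, `u` is
onto (and generically finite, as `dim X₁ = dim X`), and a morphism of orbifolds in codimension one, and
`K_X₁ + Δ₁ ≤ u^*(K_X + Δ)` off an analytic subset of `X` of codimension two (for instance: `u` is étale,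
`Δ₁ = u^*Δ`; or `u` is an étale covering of orbifolds). -/
def Dom (f₁ : X₁ → Y₁) (Δ₁ : Set X₁ → ℝ) (f : X → Y) (Δ : Set X → ℝ) : Prop :=
  Lnk n p f Δ f₁ Δ₁ ∨ ∃ (u : X₁ → X) (v : Y₁ → Y) (B : Set X),
    HolMap n n u ∧ HolMap p p v ∧ (∀ x, f (u x) = v (f₁ x)) ∧ Function.Surjective u ∧
    OrbMor (Cm n) (Cm n) u Δ₁ Δ ∧ Codim2 n B ∧ ∀ x, u x ∉ B → CanLe n u Δ₁ Δ x

end

/-- `f : (X, Δ) → Y` is a tower of fibrations: it is one fibration, or `f = h ∘ g`, where `g : X → Z` is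
a neat fibration, or neat, onto and generically finite (`dim X = dim Z`), and `h : (Z, B(g, Δ)) → Y`
is a tower; or some `f₁` as in `Dom` is a tower. The number is the sum of lower bounds of the Kodaira
dimensions of the very general orbifold fibres of the storeys (see `FibGE`). -/
inductive Tower : ∀ (p k : ℕ) (X Y : Type) [TopologicalSpace X] [Man (p + k) X]
    [TopologicalSpace Y] [Man p Y], (X → Y) → (Set X → ℝ) → WithBot ℕ∞ → Prop
  | one (p d : ℕ) (X Y : Type) [TopologicalSpace X] [Man (p + d) X] [TopologicalSpace Y] [Man p Y]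
      (f : X → Y) (Δ : Set X → ℝ) (a : WithBot ℕ∞) (hd : 0 < d)
      (hf : Fibn (p + d) p f Δ) (ha : SomeGE (p + d) p d f Δ a) : Tower p d X Y f Δ a
  | step (p k d : ℕ) (X Z Y : Type) [TopologicalSpace X] [Man (p + (k + d)) X]
      [TopologicalSpace Z] [Man (p + k) Z] [TopologicalSpace Y] [Man p Y] (g : X → Z) (h : Z → Y)
      (Δ : Set X → ℝ) (a b : WithBot ℕ∞) (hd : 0 < d) (hg : Fibn (p + (k + d)) (p + k) g Δ)
      (he : Neat (p + (k + d)) (p + k) g Δ) (ha : SomeGE (p + (k + d)) (p + k) d g Δ a)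
      (hb : Tower p k Z Y h (Bas (p + (k + d)) (p + k) g Δ) b) :
      Tower p (k + d) X Y (fun x => h (g x)) Δ (a + b)
  | cov (p k : ℕ) (X Z Y : Type) [TopologicalSpace X] [Man (p + k) X] [TopologicalSpace Z]
      [Man (p + k) Z] [TopologicalSpace Y] [Man p Y] (g : X → Z) (h : Z → Y) (Δ : Set X → ℝ)
      (a : WithBot ℕ∞) (hf : Fibn (p + k) p (fun x => h (g x)) Δ)
      (hg : HolMap (p + k) (p + k) g ∧ Function.Surjective g)
      (he : Neat (p + k) (p + k) g Δ) (hb : Tower p k Z Y h (Bas (p + k) (p + k) g Δ) a) :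
      Tower p k X Y (fun x => h (g x)) Δ a
  | model (p k : ℕ) (X Y X₁ Y₁ : Type) [TopologicalSpace X] [Man (p + k) X] [TopologicalSpace Y]
      [Man p Y] [TopologicalSpace X₁] [Man (p + k) X₁] [TopologicalSpace Y₁] [Man p Y₁] (f : X → Y)
      (f₁ : X₁ → Y₁) (Δ : Set X → ℝ) (Δ₁ : Set X₁ → ℝ) (a : WithBot ℕ∞) (hf : Fibn (p + k) p f Δ)
      (hs : Dom (p + k) p f₁ Δ₁ f Δ) (h : Tower p k X₁ Y₁ f₁ Δ₁ a) : Tower p k X Y f Δ a

/-- The very general fibres `G` of the first storey `g` (`g = f` if there is one storey) of the tower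
`f` satisfy `FibGE` with `a = κ(G, K_G + Δ|G)`, and the sum of the numbers of the other storeys is
their relative dimension `k`; or this holds for some `f₁` as in `Dom`. -/
inductive Top : ∀ (p k : ℕ) (X Y : Type) [TopologicalSpace X] [Man (p + k) X]
    [TopologicalSpace Y] [Man p Y], (X → Y) → (Set X → ℝ) → Prop
  | one (p d : ℕ) (X Y : Type) [TopologicalSpace X] [Man (p + d) X] [TopologicalSpace Y] [Man p Y]
      (f : X → Y) (Δ : Set X → ℝ) (hd : 0 < d) (hf : Fibn (p + d) p f Δ)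
      (ha : ForAll (p + d) p d f fun G _ _ i => Function.Injective i →
        FibGE (p + d) p d f Δ i (kR (p + d) d i Δ)) : Top p d X Y f Δ
  | step (p k d : ℕ) (X Z Y : Type) [TopologicalSpace X] [Man (p + (k + d)) X]
      [TopologicalSpace Z] [Man (p + k) Z] [TopologicalSpace Y] [Man p Y] (g : X → Z) (h : Z → Y)
      (Δ : Set X → ℝ) (hd : 0 < d) (hg : Fibn (p + (k + d)) (p + k) g Δ)
      (he : Neat (p + (k + d)) (p + k) g Δ)
      (ha : ForAll (p + (k + d)) (p + k) d g fun G _ _ i => Function.Injective i →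
        FibGE (p + (k + d)) (p + k) d g Δ i (kR (p + (k + d)) d i Δ))
      (hb : Tower p k Z Y h (Bas (p + (k + d)) (p + k) g Δ) ((k : ℕ∞) : WithBot ℕ∞)) :
      Top p (k + d) X Y (fun x => h (g x)) Δ
  | model (p k : ℕ) (X Y X₁ Y₁ : Type) [TopologicalSpace X] [Man (p + k) X] [TopologicalSpace Y]
      [Man p Y] [TopologicalSpace X₁] [Man (p + k) X₁] [TopologicalSpace Y₁] [Man p Y₁] (f : X → Y)
      (f₁ : X₁ → Y₁) (Δ : Set X → ℝ) (Δ₁ : Set X₁ → ℝ) (hf : Fibn (p + k) p f Δ)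
      (hs : Dom (p + k) p f₁ Δ₁ f Δ) (h : Top p k X₁ Y₁ f₁ Δ₁) : Top p k X Y f Δ

end Vale.Agent.P281.H64.Z11
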